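import Vale.Agent.P260Z.Main

/-!
# P260: the Borel conjecture fails in dimension four
-/

namespace Vale.Agent.Results.P260.ABorelCounterexample

/-- two closed connected aspherical topological four manifolds which are homotopy equivalent and
not homeomorphic -/
theorem result :
    ∃ (M N : Type) (_ : TopologicalSpace M) (_ : TopologicalSpace N)
      (_ : ChartedSpace (EuclideanSpace ℝ (Fin 4)) M)
      (_ : ChartedSpace (EuclideanSpace ℝ (Fin 4)) N),
      (T2Space M ∧ CompactSpace M ∧ ConnectedSpace M ∧
        ∃ (E : Type) (_ : TopologicalSpace E) (p : E → M),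
          IsCoveringMap p ∧ Function.Surjective p ∧ ContractibleSpace E) ∧
      (T2Space N ∧ CompactSpace N ∧ ConnectedSpace N ∧
        ∃ (E : Type) (_ : TopologicalSpace E) (p : E → N),
          IsCoveringMap p ∧ Function.Surjective p ∧ ContractibleSpace E) ∧
      Nonempty (ContinuousMap.HomotopyEquiv M N) ∧ IsEmpty (M ≃ₜ N) := by
  obtain ⟨M, N, a, b, c, d, h1, h2, h3, h4, h5, h6, h7, h8, h9, h10⟩ := P260Z.counter
  exact ⟨M, N, a, b, c, d, ⟨h1, h2, h3, h7⟩, ⟨h4, h5, h6, h8⟩, h9, h10⟩

end Vale.Agent.Results.P260.ABorelCounterexample
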